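import Vale.Agent.P366.H296.Q.Mom
import Vale.Agent.P366.H745.Eq7

/-! Equality case: null cones with a vertex. -/

open MeasureTheory Metric Filter Topology Set
open scoped ContDiff ENNReal Matrix

noncomputable section
namespace Vale.Agent.P366.KSL

open Vale.Agent.P366 (pd E flux)
open Vale.Agent.P366.H353.N
open Vale.Agent.P366.Kerr (NullCone Psi pt sp indG indK sgn ksL ein IsKS FutTimelike DECatL IsGraph
  IsSliceL HasDEC)
open Vale.Agent.P366.KSN (Y dts sg Ms Ws posU' Y_apply smH Ms_posDef)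

variable {n : ℕ} {C : NullCone n} {l : Fin (n + 1) → E (n + 1) → ℝ} {V : E (n + 1) → ℝ}
  {f : E n → ℝ} {D : Stmt.Exterior n} {p : E (n + 1)} {x y c : E n} {k s : ℝ}

/-- `H = k |x| + ⟨c, x⟩` -/
lemma cone_pd (hH : ∀ x, x ≠ 0 → C.H x = k * ‖x‖ + ∑ i, c i * x i) (hx : x ≠ 0) (i : Fin n) :
    pd i C.H x = k * (x i / ‖x‖) + c i := by
  have h1 : Sm fun x : E n => k * ‖x‖ := (Sm.const k).mul Sm.norm
  have h2 : ∀ j : Fin n, Sm fun x : E n => c j * x j := fun j => (Sm.const _).mul (Sm.coord j)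
  rw [pd_congr' (f := fun x => k * ‖x‖ + ∑ j, c j * x j) hH hx, pd_add' h1 (Sm.sum _ h2) hx,
    pd_sum' _ h2 hx, pd_cmul' Sm.norm k hx, pd_norm' hx]
  congr 1
  have h3 : ∀ j : Fin n, pd i (fun x : E n => c j * x j) x = c j * kd i j := fun j => by
    rw [pd_cmul' (Sm.coord j) _ hx, pd_coord']
  simp only [h3, kd]
  simp

lemma cone_hs (hH : ∀ x, x ≠ 0 → C.H x = k * ‖x‖ + ∑ i, c i * x i) (hx : ‖x‖ = 1) (i j : Fin n) :
    hs C.H i j x = k * (kd i j - x i * x j) := by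
  have hx0 := ne_zero_of_one hx
  unfold H353.N.hs
  rw [pd_congr' (f := fun x => k * (Vale.Agent.P366.Nc j x) + c j)
    (fun y hy => cone_pd hH hy j) hx0]
  have s1 : Sm (Vale.Agent.P366.Nc (n := n) j) := fun y hy => Vale.Agent.P366.contDiffAt_Nc j hy
  rw [pd_add' ((Sm.const k).mul s1) (Sm.const _) hx0, Vale.Agent.P366.pd_const, add_zero,
    pd_cmul' s1 k hx0, Vale.Agent.P366.pd_Nc hx0]
  unfold kd Vale.Agent.P366.Nc
  rw [hx]
  simp

lemma cone_Y (hH : ∀ x, x ≠ 0 → C.H x = k * ‖x‖ + ∑ i, c i * x i) (hx : ‖x‖ = 1) (s : ℝ) :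
    Y C.H x s = c + (k + s) • x := by
  ext i
  rw [Y_apply, cone_pd hH (ne_zero_of_one hx), hx]
  simp only [PiLp.add_apply, PiLp.smul_apply, smul_eq_mul]
  ring

lemma cone_Ms (hH : ∀ x, x ≠ 0 → C.H x = k * ‖x‖ + ∑ i, c i * x i) (hx : ‖x‖ = 1) (s : ℝ) :
    Ms C.H s x = Shell.xx x + (k + s) • Shell.Var.P x := by
  ext i j
  show hs C.H i j x + s * pr x i j + x i * x j = Shell.xx x i j + (k + s) * (Shell.Var.P x i j)
  unfold Shell.Var.P pr
  rw [cone_hs hH hx, Matrix.sub_apply, Matrix.one_apply, Shell.xx_apply]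
  unfold kd
  ring

/-- `k + U > 0` -/
lemma cone_pos [Fact (3 ≤ n)] (hH : ∀ x, x ≠ 0 → C.H x = k * ‖x‖ + ∑ i, c i * x i)
    (hx : ‖x‖ = 1) (hs : C.U x ≤ s) : 0 < k + s := by
  have hn3 := Fact.out (p := 3 ≤ n)
  obtain ⟨v, hv, hv0⟩ : ∃ v : Fin n → ℝ, ∑ i, x i * v i = 0 ∧ v ≠ 0 := by
    set i0 : Fin n := ⟨0, by omega⟩
    set i1 : Fin n := ⟨1, by omega⟩
    have h01 : i0 ≠ i1 := by simp [i0, i1]
    by_cases hc : x i0 = 0
    · refine ⟨Pi.single i0 1, ?_, ?_⟩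
      · simp [Pi.single_apply, hc]
      · simp
    · refine ⟨Pi.single i1 (x i0) - Pi.single i0 (x i1), ?_, ?_⟩
      · simp [Pi.single_apply, mul_sub, Finset.sum_sub_distrib]
        ring
      · intro hc'
        have := congrFun hc' i1
        simp [h01.symm] at this
        exact hc this
  have k1 := (Ms_posDef C hx hs).dotProduct_mulVec_pos hv0
  rw [star_trivial, cone_Ms hH hx, Matrix.add_mulVec, Matrix.smul_mulVec, dotProduct_add,
    dotProduct_smul] at k1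
  have k2 : Shell.xx x *ᵥ v = 0 := by
    ext i
    simp only [Matrix.mulVec, dotProduct, Shell.xx_apply, Pi.zero_apply]
    rw [show ∑ j, x i * x j * v j = x i * ∑ j, x j * v j by
      rw [Finset.mul_sum]; exact Finset.sum_congr rfl fun j _ => by ring, hv, mul_zero]
  have k3 : Shell.Var.P x *ᵥ v = v := by
    unfold Shell.Var.P
    rw [Matrix.sub_mulVec, Matrix.one_mulVec, k2, sub_zero]
  rw [k2, k3, dotProduct_zero, zero_add, smul_eq_mul] at k1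
  exact pos_of_mul_pos_left k1 (Finset.sum_nonneg fun i _ => mul_self_nonneg (v i))

lemma cone_sg [Fact (3 ≤ n)] (hH : ∀ x, x ≠ 0 → C.H x = k * ‖x‖ + ∑ i, c i * x i)
    (hx : ‖x‖ = 1) (hs : C.U x ≤ s) : sg C.H s x = ((n : ℝ) - 1) * (k + s) ^ (n - 2) := by
  have h1 := Shell.sg_round (Fact.out (p := 3 ≤ n)) (Shell.Var.dot_xx hx) (cone_pos hH hx hs)
  unfold KSN.sg
  rw [cone_Ms hH hx]
  exact h1

lemma cone_dts [Fact (3 ≤ n)] (hH : ∀ x, x ≠ 0 → C.H x = k * ‖x‖ + ∑ i, c i * x i)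
    (hx : ‖x‖ = 1) (hs : C.U x ≤ s) : dts C.H s x = (k + s) ^ (n - 1) := by
  have hn3 := Fact.out (p := 3 ≤ n)
  have h1 := Shell.det_round (n := n) (by omega) (Shell.Var.dot_xx hx) (cone_pos hH hx hs)
  unfold KSN.dts
  rw [cone_Ms hH hx]
  exact h1

/-- The distance to the vertex. -/
lemma cone_dist (hH : ∀ x, x ≠ 0 → C.H x = k * ‖x‖ + ∑ i, c i * x i) (hx : ‖x‖ = 1)
    (hk : 0 ≤ k + s) : ‖Y C.H x s - c‖ = k + s := by
  rw [cone_Y hH hx, add_sub_cancel_left, norm_smul, hx, mul_one, Real.norm_eq_abs, abs_of_nonneg hk]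

/-- No momentum in the radial case. -/
theorem cone_P [Fact (3 ≤ n)] (hS : IsSliceL C l V f D)
    (hk : ∀ y, 0 ≤ D.F y → IsKSg l V (pt (f y) y)) (hAF : D.IsAF)
    (hH : ∀ x, x ≠ 0 → C.H x = k * ‖x‖ + ∑ i, c i * x i)
    (hG : ∀ y, 0 ≤ D.F y → ∀ a b, Gm l V a b (pt (f y) y) = 0) {M : ℝ}
    (hl : ∀ x, ‖x‖ = 1 → l 0 (pt (- C.U x) (Y C.H x (C.U x))) = 1)
    (hV : ∀ y, 0 ≤ D.F y → V (pt (f y) y) = M / ‖y - c‖ ^ (n - 2))
    {P : Fin n → ℝ} (hP : D.IsMomentum P) : P = 0 := by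
  have hdiv : ∀ b y, 0 ≤ D.F y → ∑ i, pd i (Zf l V f b i) y = 0 := by
    intro b y hy
    rw [div_Z hS.toIsGraph hy (hk y hy) b, hG y hy]
    simp only [hG y hy, mul_zero, Finset.sum_const_zero, sub_zero]
  funext j
  refine mom_zero hS hk hAF hdiv (κ := M * ((n : ℝ) - 1)) (fun x hx => ?_) hP j
  have h1 : f (Y C.H x (C.U x)) = - C.U x := by
    have := bd_Y (β := fun z => - C.U z) hS.bdr hx
    rw [this, KSN.U_smul C (ne_zero_of_one hx) (posU' C hx)]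
  have h2 := hV _ (mem_Y hS.dom hx (le_refl (C.U x)))
  have h3 := cone_pos hH hx (le_refl (C.U x))
  rw [h1, cone_dist hH hx h3.le] at h2
  rw [h2, hl x hx, cone_sg hH hx (le_refl _)]
  have h4 : (k + C.U x) ^ (n - 2) ≠ 0 := pow_ne_zero _ h3.ne'
  field_simp

end Vale.Agent.P366.KSL
end
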