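import Vale.Agent.P366.H296.Q.Ext
import Vale.Agent.P366.H707.L.RigL
import Vale.Agent.P366.H375.W.Jet
import Vale.Agent.P366.Kerr.DefsE

/-! Equality case: the jets of the Kerr-Schild data along the slice. -/

open MeasureTheory Metric Filter Topology Set
open scoped ContDiff ENNReal

noncomputable section
namespace Vale.Agent.P366.KSL

open Vale.Agent.P366 (pd E)
open Vale.Agent.P366.H353.N
open Vale.Agent.P366.Kerr (NullCone Psi pt sp indG indK sgn ksL ksG ein nul IsKS FutTimelike DECatL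
  IsGraph IsSliceL HasDEC IsGradient schw IsSchwSlice)
open Vale.Agent.P366.KSN (Y Y_apply posU' smH U_smul stmt_pd spL sp_hasFDerivAt Y_eq norm_smul_unit)
open Vale.Agent.P366.KSN.X5 (DP cdd cd_pd)
open Vale.Agent.P366.KSL.Rig (lc dlc nn dp_lc dd)

variable {n : ℕ} {C : NullCone n} {l : Fin (n + 1) → E (n + 1) → ℝ} {V : E (n + 1) → ℝ}
  {lam f : E n → ℝ} {D : Stmt.Exterior n} {p : E (n + 1)} {x y c : E n} {k s r₀ : ℝ}

/-! ### the cone -/

theorem cone_mem [Fact (3 ≤ n)]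
    (dom : ∀ y, 0 ≤ D.F y ↔ ∃ x, x ≠ 0 ∧ C.U x ≤ ‖x‖ ∧ Psi C.H x = y)
    (hH : ∀ x, x ≠ 0 → C.H x = k * ‖x‖ + ∑ i, c i * x i) (hy : 0 ≤ D.F y) :
    ∃ x s, ‖x‖ = 1 ∧ C.U x ≤ s ∧ Y C.H x s = y ∧ 0 < k + s ∧ ‖y - c‖ = k + s := by
  obtain ⟨x, s, hx, hs, rfl⟩ := (dom_iff dom).mp hy
  have h := cone_pos hH hx hs
  exact ⟨x, s, hx, hs, rfl, h, cone_dist hH hx h.le⟩

theorem cone_ne [Fact (3 ≤ n)]
    (dom : ∀ y, 0 ≤ D.F y ↔ ∃ x, x ≠ 0 ∧ C.U x ≤ ‖x‖ ∧ Psi C.H x = y)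
    (hH : ∀ x, x ≠ 0 → C.H x = k * ‖x‖ + ∑ i, c i * x i) (hy : 0 ≤ D.F y) : y ≠ c := by
  obtain ⟨x, s, hx, hs, rfl, h1, h2⟩ := cone_mem dom hH hy
  intro h
  rw [h, sub_self, norm_zero] at h2
  exact h1.ne h2

/-! ### the function `λ` -/

theorem lam_cone [Fact (3 ≤ n)]
    (dom : ∀ y, 0 ≤ D.F y ↔ ∃ x, x ≠ 0 ∧ C.U x ≤ ‖x‖ ∧ Psi C.H x = y)
    (hg : IsGradient C lam l f D)
    (hH : ∀ x, x ≠ 0 → C.H x = k * ‖x‖ + ∑ i, c i * x i) (hy : 0 ≤ D.F y) :
    lam y = ‖y - c‖ - k := by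
  obtain ⟨x, s, hx, hs, rfl, h1, h2⟩ := cone_mem dom hH hy
  have h0 : 0 < s := (posU' C hx).trans_le hs
  have hx0 := ne_zero_of_one hx
  have h := hg.eqL (s • x) (smul_ne_zero h0.ne' hx0)
    (by rw [norm_smul_unit hx h0.le, U_smul C hx0 h0]; exact hs)
  rw [Y_eq C hx h0, norm_smul_unit hx h0.le] at h
  rw [h2, h]
  ring

/-- functions of the space coordinates -/
lemma dp_sp {F : E n → ℝ} (hF : DifferentiableAt ℝ F (sp p)) :
    DP 0 (fun q => F (sp q)) 0 p ∧ ∀ i : Fin n, DP i.succ (fun q => F (sp q)) (pd i F (sp p)) p := by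
  have h1 := hF.hasFDerivAt.comp p (sp_hasFDerivAt p)
  constructor
  · refine ⟨h1.differentiableAt, ?_⟩
    unfold Vale.Agent.P366.pd
    rw [show (fun q => F (sp q)) = F ∘ sp from rfl, h1.fderiv,
      ContinuousLinearMap.comp_apply, Rig.spL_single0, map_zero]
  · intro i
    refine ⟨h1.differentiableAt, ?_⟩
    unfold Vale.Agent.P366.pd
    rw [show (fun q => F (sp q)) = F ∘ sp from rfl, h1.fderiv,
      ContinuousLinearMap.comp_apply, Rig.spL_single]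

/-- the covector field `d(t + λ)` -/
lemma nul_ev {p : E (n + 1)} (hl : ContDiffAt ℝ ∞ lam (sp p)) (a : Fin (n + 1)) :
    Stmt.pd a (nul lam) =ᶠ[𝓝 p]
      fun q => Fin.cons (α := fun _ => ℝ) 1 (fun i => pd i lam (sp q)) a := by
  have h1 : ∀ᶠ z in 𝓝 (sp p), ContDiffAt ℝ 1 lam z :=
    (hl.of_le (by exact_mod_cast le_top)).eventually (by simp)
  have h2 : ∀ᶠ q in 𝓝 p, ContDiffAt ℝ 1 lam (sp q) :=
    (KSN.sp_contDiff.continuous.continuousAt (x := p)).eventually h1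
  filter_upwards [h2] with q hq
  have hd : DifferentiableAt ℝ lam (sp q) := hq.differentiableAt (by norm_num)
  rw [stmt_pd (KSN.nul_diff hd)]
  refine Fin.cases ?_ (fun i => ?_) a
  · exact KSN.pd_nul_zero hd
  · exact KSN.pd_nul_succ hd i

lemma l_ev (hg : IsGradient C lam l f D) (hy : 0 ≤ D.F y) (a : Fin (n + 1)) :
    l a =ᶠ[𝓝 (pt (f y) y)]
      fun q => Fin.cons (α := fun _ => ℝ) 1 (fun i => pd i lam (sp q)) a := by
  have h1 : l a =ᶠ[𝓝 (pt (f y) y)] Stmt.pd a (nul lam) := by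
    filter_upwards [hg.grad y hy] with q hq using hq a
  exact h1.trans (nul_ev (hg.smL y hy) a)

/-- on the open exterior `l` is the radial field near the slice -/
theorem l_rad [Fact (3 ≤ n)]
    (dom : ∀ y, 0 ≤ D.F y ↔ ∃ x, x ≠ 0 ∧ C.U x ≤ ‖x‖ ∧ Psi C.H x = y)
    (hg : IsGradient C lam l f D) (hH : ∀ x, x ≠ 0 → C.H x = k * ‖x‖ + ∑ i, c i * x i)
    (hy : 0 < D.F y) (a : Fin (n + 1)) : l a =ᶠ[𝓝 (pt (f y) y)] lc c a := by
  refine (l_ev hg hy.le a).trans ?_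
  have h1 : ∀ᶠ z in 𝓝 y, 0 < D.F z :=
    (D.dom.1.continuous.continuousAt (x := y)).eventually (lt_mem_nhds hy)
  have h2 : ∀ᶠ q in 𝓝 (pt (f y) y), 0 < D.F (sp q) :=
    (KSN.sp_contDiff.continuous.continuousAt (x := pt (f y) y)).eventually h1
  filter_upwards [h2] with q hq
  refine Fin.cases rfl (fun i => ?_) a
  show pd i lam (sp q) = nn c i (sp q)
  have h3 : ∀ᶠ z in 𝓝 (sp q), 0 < D.F z :=
    (D.dom.1.continuous.continuousAt (x := sp q)).eventually (lt_mem_nhds hq)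
  have h4 : lam =ᶠ[𝓝 (sp q)] fun z => ‖z - c‖ - k := by
    filter_upwards [h3] with z hz using lam_cone dom hg hH hz.le
  rw [Vale.Agent.P366.pd_congr h4 i]
  exact ((Rig.dp_rho (cone_ne dom hH hq.le) i).sub (DP.const k)).2.trans (sub_zero _)

/-- the first derivatives of `λ` up to the boundary -/
theorem pd_lam [Fact (3 ≤ n)]
    (dom : ∀ y, 0 ≤ D.F y ↔ ∃ x, x ≠ 0 ∧ C.U x ≤ ‖x‖ ∧ Psi C.H x = y)
    (hg : IsGradient C lam l f D) (hH : ∀ x, x ≠ 0 → C.H x = k * ‖x‖ + ∑ i, c i * x i)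
    (hy : 0 ≤ D.F y) (i : Fin n) : pd i lam y = nn c i y := by
  refine ext_bdr (A := pd i lam) (B := nn c i) dom
    (fun y hy => (cd_pd (hg.smL y hy) i).continuousAt)
    (fun y hy => (Rig.cd_nn (cone_ne dom hH hy) i).continuousAt) (fun y hy => ?_) hy
  have h3 : ∀ᶠ z in 𝓝 y, 0 < D.F z :=
    (D.dom.1.continuous.continuousAt (x := y)).eventually (lt_mem_nhds hy)
  have h4 : lam =ᶠ[𝓝 y] fun z => ‖z - c‖ - k := by
    filter_upwards [h3] with z hz using lam_cone dom hg hH hz.le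
  rw [Vale.Agent.P366.pd_congr h4 i]
  exact ((Rig.dp_rho (cone_ne dom hH hy.le) i).sub (DP.const k)).2.trans (sub_zero _)

/-- the second derivatives of `λ` up to the boundary -/
theorem hs_lam [Fact (3 ≤ n)]
    (dom : ∀ y, 0 ≤ D.F y ↔ ∃ x, x ≠ 0 ∧ C.U x ≤ ‖x‖ ∧ Psi C.H x = y)
    (hg : IsGradient C lam l f D) (hH : ∀ x, x ≠ 0 → C.H x = k * ‖x‖ + ∑ i, c i * x i)
    (hy : 0 ≤ D.F y) (i j : Fin n) : pd j (pd i lam) y = pd j (nn c i) y := by
  refine ext_bdr (A := pd j (pd i lam)) (B := pd j (nn c i)) dom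
    (fun y hy => (cd_pd (cd_pd (hg.smL y hy) i) j).continuousAt)
    (fun y hy => (cd_pd (Rig.cd_nn (cone_ne dom hH hy) i) j).continuousAt) (fun y hy => ?_) hy
  have h3 : ∀ᶠ z in 𝓝 y, 0 < D.F z :=
    (D.dom.1.continuous.continuousAt (x := y)).eventually (lt_mem_nhds hy)
  have h4 : pd i lam =ᶠ[𝓝 y] nn c i := by
    filter_upwards [h3] with z hz using pd_lam dom hg hH hz.le i
  exact Vale.Agent.P366.pd_congr h4 j

/-- the jet of `l` along the slice -/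
theorem l_jet [Fact (3 ≤ n)]
    (dom : ∀ y, 0 ≤ D.F y ↔ ∃ x, x ≠ 0 ∧ C.U x ≤ ‖x‖ ∧ Psi C.H x = y)
    (hg : IsGradient C lam l f D) (hH : ∀ x, x ≠ 0 → C.H x = k * ‖x‖ + ∑ i, c i * x i)
    (hy : 0 ≤ D.F y) (a b : Fin (n + 1)) :
    l a (pt (f y) y) = lc c a (pt (f y) y) ∧ DP b (l a) (pd b (lc c a) (pt (f y) y)) (pt (f y) y) := by
  have hev := l_ev hg hy a
  have hne : sp (pt (f y) y) ≠ c := cone_ne dom hH hy
  have hsm := hg.smL y hy
  constructor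
  · rw [hev.eq_of_nhds]
    refine Fin.cases rfl (fun i => ?_) a
    exact pd_lam dom hg hH hy i
  · have h1 : DP b (fun q : E (n + 1) => Fin.cons (α := fun _ => ℝ) 1 (fun i => pd i lam (sp q)) a)
        (pd b (lc c a) (pt (f y) y)) (pt (f y) y) := by
      rw [(dp_lc hne a b).2]
      refine Fin.cases ?_ (fun i => ?_) a
      · exact DP.const 1
      · have h2 := dp_sp (p := pt (f y) y) (F := pd i lam) (cdd (cd_pd hsm i))
        refine Fin.cases ?_ (fun j => ?_) b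
        · exact h2.1
        · have h3 := h2.2 j
          have h4 : pd j (pd i lam) y = dlc c (pt (f y) y) i.succ j.succ := by
            rw [hs_lam dom hg hH hy i j]
            exact (Rig.dp_nn (cone_ne dom hH hy) i j).2
          exact ⟨h3.1, h3.2.trans h4⟩
    refine ⟨h1.1.congr_of_eventuallyEq hev, ?_⟩
    rw [Vale.Agent.P366.pd_congr hev b]
    exact h1.2

/-! ### the function `V` -/

/-- `V` along the slice -/
theorem cone_ode [Fact (3 ≤ n)] (hS : IsSliceL C l V f D)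
    (hH : ∀ x, x ≠ 0 → C.H x = k * ‖x‖ + ∑ i, c i * x i)
    (hd : ∀ y, 0 < D.F y → pd 0 V (pt (f y) y) = 0 ∧ ∀ i : Fin n, pd i.succ V (pt (f y) y) =
      -((n - 2) * (V (pt (f y) y) / ‖y - c‖) * nn c i y)) :
    ∃ M, ∀ y, 0 ≤ D.F y → V (pt (f y) y) = M / ‖y - c‖ ^ (n - 2) ∧ pd 0 V (pt (f y) y) = 0 ∧
      ∀ i : Fin n, pd i.succ V (pt (f y) y) =
        -((n - 2) * (V (pt (f y) y) / ‖y - c‖) * nn c i y) := by
  have hn3 := Fact.out (p := 3 ≤ n)
  have hne : ∀ y, 0 ≤ D.F y → y ≠ c := fun y hy => cone_ne hS.dom hH hy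
  have hV : ∀ y, 0 ≤ D.F y → ContDiffAt ℝ ∞ V (pt (f y) y) := fun y hy => (hS.ks y hy).smV
  have hgr : ∀ y, 0 ≤ D.F y → ContDiffAt ℝ ∞ (fun z => pt (f z) z) y := fun y hy =>
    Rig.cd_graph (hS.smf y hy)
  have hcV : ∀ y, 0 ≤ D.F y → ContDiffAt ℝ ∞ (fun z => V (pt (f z) z)) y := fun y hy =>
    Rig.cd_gv (hS.smf y hy) (hV y hy)
  have hcd : ∀ a y, 0 ≤ D.F y → ContDiffAt ℝ ∞ (fun z => pd a V (pt (f z) z)) y := fun a y hy =>
    Rig.cd_gd (hS.smf y hy) (hV y hy) a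
  have hcr : ∀ y, 0 ≤ D.F y → ContDiffAt ℝ ∞ (fun z : E n => ‖z - c‖) y := fun y hy =>
    Rig.cd_rho (hne y hy)
  have h1 : ∀ y, 0 ≤ D.F y → pd 0 V (pt (f y) y) = 0 := fun y hy =>
    ext_bdr (A := fun z => pd 0 V (pt (f z) z)) (B := fun _ => 0) hS.dom
      (fun y hy => (hcd 0 y hy).continuousAt) (fun _ _ => continuousAt_const)
      (fun y hy => (hd y hy).1) hy
  have h2 : ∀ y, 0 ≤ D.F y → ∀ i : Fin n, pd i.succ V (pt (f y) y) =
        -((n - 2) * (V (pt (f y) y) / ‖y - c‖) * nn c i y) := fun y hy i =>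
    ext_bdr (A := fun z => pd i.succ V (pt (f z) z))
      (B := fun z => -((n - 2) * (V (pt (f z) z) / ‖z - c‖) * nn c i z)) hS.dom
      (fun y hy => (hcd i.succ y hy).continuousAt)
      (fun y hy => (((continuousAt_const.mul ((hcV y hy).continuousAt.div (hcr y hy).continuousAt
        (Rig.rho_ne (hne y hy)))).mul (Rig.cd_nn (hne y hy) i).continuousAt)).neg)
      (fun y hy => (hd y hy).2 i) hy
  set G : E n → ℝ := fun z => V (pt (f z) z) * ‖z - c‖ ^ (n - 2) with hG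
  have hGd : ∀ y, 0 ≤ D.F y → DifferentiableAt ℝ G y := fun y hy =>
    cdd ((hcV y hy).mul ((hcr y hy).pow _))
  have hG0 : ∀ y, 0 < D.F y → ∀ i, pd i G y = 0 := by
    intro y hy i
    have e1 : DP i (fun z => V (pt (f z) z)) (pd i.succ V (pt (f y) y) +
        pd i f y * pd 0 V (pt (f y) y)) y :=
      KSN.Gr.dp_gr (cdd (hV y hy.le)) (cdd (hS.smf y hy.le)) i
    have e2 := Rig.dp_rho (hne y hy.le) i
    have e3 : DP i (fun z : E n => ‖z - c‖ ^ (n - 2))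
        (((n - 2 : ℕ) : ℝ) * ‖y - c‖ ^ (n - 2 - 1) * nn c i y) y := by
      refine ⟨e2.1.pow _, ?_⟩
      have h5 := e2.1.hasFDerivAt.pow (n - 2)
      have h6 : pd i (fun z : E n => ‖z - c‖) y = nn c i y := e2.2
      unfold Vale.Agent.P366.pd at h6 ⊢
      rw [h5.fderiv]
      simp only [smul_apply, smul_eq_mul, h6]
      simp
    have e4 := (e1.mul e3).2
    have e5 : pd i G y = _ := e4
    rw [e5, h1 y hy.le, h2 y hy.le i]
    have hr := Rig.rho_ne (hne y hy.le)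
    have hnat : ((n - 2 : ℕ) : ℝ) = (n : ℝ) - 2 := by
      rw [Nat.cast_sub (by omega)]; norm_num
    rw [hnat]
    have hp : ‖y - c‖ ^ (n - 2) = ‖y - c‖ ^ (n - 2 - 1) * ‖y - c‖ := by
      rw [← pow_succ]
      congr 1
      omega
    rw [hp]
    field_simp
    ring
  obtain ⟨M, hM⟩ := const_of_pd hS.dom hS.bdF hGd hG0
  refine ⟨M, fun y hy => ⟨?_, h1 y hy, h2 y hy⟩⟩
  have hr := pow_ne_zero (n - 2) (Rig.rho_ne (hne y hy))
  rw [← hM y hy, hG]
  field_simp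

/-! ### the induced data -/

/-- The induced data of the slice are those of the Schwarzschild-Tangherlini metric. -/
theorem schw_ind [Fact (3 ≤ n)]
    (dom : ∀ y, 0 ≤ D.F y ↔ ∃ x, x ≠ 0 ∧ C.U x ≤ ‖x‖ ∧ Psi C.H x = y)
    (hg : IsGradient C lam l f D) (hH : ∀ x, x ≠ 0 → C.H x = k * ‖x‖ + ∑ i, c i * x i)
    (hr₀ : 0 < r₀)
    (hV0 : ContDiffAt ℝ ∞ V (pt (f y) y))
    (hV1 : V (pt (f y) y) = r₀ ^ (n - 2) / ‖y - c‖ ^ (n - 2)) (hV2 : pd 0 V (pt (f y) y) = 0)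
    (hV3 : ∀ i : Fin n, pd i.succ V (pt (f y) y) =
        -((n - 2) * (V (pt (f y) y) / ‖y - c‖) * nn c i y))
    (hy : 0 ≤ D.F y) (i j : Fin n) :
    indG (ksL l V) f y i j = indG (schw c r₀) f y i j ∧
      indK (ksL l V) f y i j = indK (schw c r₀) f y i j := by
  have hn3 := Fact.out (p := 3 ≤ n)
  have hne : sp (pt (f y) y) ≠ c := cone_ne dom hH hy
  have hne' : y ≠ c := hne
  have hr := Rig.rho_ne hne'
  set V' : E (n + 1) → ℝ := fun p => (r₀ / Stmt.len (sp p - c)) ^ (n - 2) with hV'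
  set W : E n → ℝ := fun z => (r₀ / ‖z - c‖) ^ (n - 2) with hW
  have hWV : V' = fun p => W (sp p) := rfl
  have hWd : ∀ i, DP i W (-((n - 2) * ((r₀ / ‖y - c‖) ^ (n - 2) / ‖y - c‖) * nn c i y)) y := by
    intro i
    have e2 := Rig.dp_rho hne' i
    have e6 : DifferentiableAt ℝ (fun z : E n => r₀ / ‖z - c‖) y :=
      cdd (contDiffAt_const.div (Rig.cd_rho hne') hr)
    have e7 : DP i (fun z : E n => r₀ / ‖z - c‖) (-(r₀ / ‖y - c‖ ^ 2) * nn c i y) y := by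
      refine ⟨e6, ?_⟩
      have h2 : DP i (fun z : E n => r₀ / ‖z - c‖ * ‖z - c‖) 0 y := by
        have h3 : (fun z : E n => r₀ / ‖z - c‖ * ‖z - c‖) =ᶠ[𝓝 y] fun _ => r₀ := by
          filter_upwards [isOpen_ne.mem_nhds hne'] with z hz
          exact div_mul_cancel₀ _ (Rig.rho_ne hz)
        refine ⟨(differentiableAt_const r₀).congr_of_eventuallyEq h3, ?_⟩
        rw [Vale.Agent.P366.pd_congr h3 i, Vale.Agent.P366.pd_const]
      have h4 := ((DP.of (k := i) e6).mul e2).2.symm.trans h2.2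
      have h5 : pd i (fun z : E n => r₀ / ‖z - c‖) y * ‖y - c‖ = - (r₀ / ‖y - c‖ * nn c i y) := by
        linarith
      field_simp at h5 ⊢
      linarith
    have e8 : DP i W (((n - 2 : ℕ) : ℝ) * (r₀ / ‖y - c‖) ^ (n - 2 - 1) *
        (-(r₀ / ‖y - c‖ ^ 2) * nn c i y)) y := by
      refine ⟨e7.1.pow _, ?_⟩
      have h5 := e7.1.hasFDerivAt.pow (n - 2)
      have h6 := e7.2
      unfold Vale.Agent.P366.pd at h6 ⊢
      rw [h5.fderiv]
      simp only [smul_apply, smul_eq_mul, h6]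
      simp
    have e9 : ((n - 2 : ℕ) : ℝ) * (r₀ / ‖y - c‖) ^ (n - 2 - 1) *
        (-(r₀ / ‖y - c‖ ^ 2) * nn c i y) =
        -((n - 2) * ((r₀ / ‖y - c‖) ^ (n - 2) / ‖y - c‖) * nn c i y) := by
      have hnat : ((n - 2 : ℕ) : ℝ) = (n : ℝ) - 2 := by
        rw [Nat.cast_sub (by omega)]; norm_num
      rw [hnat]
      have hp : (r₀ / ‖y - c‖) ^ (n - 2) = (r₀ / ‖y - c‖) ^ (n - 2 - 1) * (r₀ / ‖y - c‖) := by
        rw [← pow_succ]
        congr 1
        omega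
      rw [hp]
      field_simp
    rwa [e9] at e8
  have hWdiff : DifferentiableAt ℝ W (sp (pt (f y) y)) := by
    have : 0 < n := by omega
    exact (hWd ⟨0, this⟩).1
  have hVW := dp_sp (p := pt (f y) y) (F := W) hWdiff
  have hV'd : DifferentiableAt ℝ V' (pt (f y) y) := hVW.1.1
  have hval : V (pt (f y) y) = V' (pt (f y) y) := by
    rw [hV1, ← div_pow]
    rfl
  have hder : ∀ a, Stmt.pd a V (pt (f y) y) = Stmt.pd a V' (pt (f y) y) := by
    intro a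
    rw [stmt_pd (cdd hV0), stmt_pd hV'd]
    refine Fin.cases ?_ (fun i => ?_) a
    · rw [hV2]
      exact hVW.1.2.symm
    · rw [hV3 i, hval]
      exact ((hVW.2 i).2.trans (hWd i).2).symm
  set ρ : E n → ℝ := fun z => Stmt.len (z - c) with hρ
  have hρs : ContDiffAt ℝ ∞ ρ (sp (pt (f y) y)) := Rig.cd_rho hne'
  have hev : ∀ a, Stmt.pd a (nul ρ) =ᶠ[𝓝 (pt (f y) y)] lc c a := by
    intro a
    refine (nul_ev hρs a).trans ?_
    have h2 : ∀ᶠ q in 𝓝 (pt (f y) y), sp q ≠ c :=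
      (KSN.sp_contDiff.continuous.continuousAt (x := pt (f y) y)).eventually
        (isOpen_ne.mem_nhds hne)
    filter_upwards [h2] with q hq
    refine Fin.cases rfl (fun i => ?_) a
    exact (Rig.dp_rho hq i).2
  have e1 : schw c r₀ = ksL (fun a => Stmt.pd a (nul ρ)) V' := ksG_eq_ksL _ _
  rw [e1]
  have hl' : ∀ a b, Stmt.pd a (nul ρ) (pt (f y) y) = lc c a (pt (f y) y) ∧
      DP b (Stmt.pd a (nul ρ)) (pd b (lc c a) (pt (f y) y)) (pt (f y) y) := by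
    intro a b
    refine ⟨(hev a).eq_of_nhds, (dp_lc hne a b).1.congr_of_eventuallyEq (hev a), ?_⟩
    exact Vale.Agent.P366.pd_congr (hev a) b
  have hl := l_jet dom hg hH hy
  refine ind_congr (fun a b => ?_) (fun a b c' => ?_) i j
  · show (if a = b then sgn a else 0) + V (pt (f y) y) * l a (pt (f y) y) * l b (pt (f y) y) =
      (if a = b then sgn a else 0) + V' (pt (f y) y) * Stmt.pd a (nul ρ) (pt (f y) y) *
        Stmt.pd b (nul ρ) (pt (f y) y)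
    rw [hval, (hl a 0).1, (hl b 0).1, (hl' a 0).1, (hl' b 0).1]
  · have h1 := (hp_ksL (e := Kerr.sgn) (cdd hV0) (fun a => (hl a 0).2.1) c' a b).pd
    have h2 := (hp_ksL (e := Kerr.sgn) (l := fun a => Stmt.pd a (nul ρ)) hV'd
      (fun a => (hl' a 0).2.1) c' a b).pd
    show Stmt.pd c' (fun q => (if a = b then Kerr.sgn a else 0) + V q * l a q * l b q) _ =
      Stmt.pd c' (fun q => (if a = b then Kerr.sgn a else 0) + V' q * Stmt.pd a (nul ρ) q *
        Stmt.pd b (nul ρ) q) _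
    have k1 : ∀ a b, Stmt.pd b (l a) (pt (f y) y) = pd b (lc c a) (pt (f y) y) := fun a b => by
      rw [stmt_pd (hl a b).2.1]; exact (hl a b).2.2
    have k2 : ∀ a b, Stmt.pd b (Stmt.pd a (nul ρ)) (pt (f y) y) = pd b (lc c a) (pt (f y) y) :=
      fun a b => by rw [stmt_pd (hl' a b).2.1]; exact (hl' a b).2.2
    rw [h1, h2, hval, hder, (hl a 0).1, (hl b 0).1, (hl' a 0).1, (hl' b 0).1, k1, k1, k2, k2]

end Vale.Agent.P366.KSL
end
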