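import Vale.Agent.P366.H896.L.Glue
import Vale.Agent.P366.H296.L.Tau

/-! Equality case: the dominant energy condition and the vanishing of one energy component force
the Einstein tensor to vanish. -/

open MeasureTheory Metric Filter Topology Set
open scoped ContDiff ENNReal

noncomputable section
namespace Vale.Agent.P366.KSL

open Vale.Agent.P366 (pd E)
open Vale.Agent.P366.H353.N
open Vale.Agent.P366.H896
open Vale.Agent.P366.Kerr (NullCone Psi pt sp indG indK sgn ksL ein IsKS FutTimelike DECatL IsGraph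
  IsSliceL HasDEC)

variable {n : ℕ}

/-- A linear functional which is nonnegative on the future cone and vanishes at an interior point
of the cone is zero. -/
lemma fun_zero {φ : Fin (n + 1) → ℝ}
    (hφ : ∀ Y : Fin (n + 1) → ℝ, ∑ i : Fin n, Y i.succ ^ 2 ≤ Y 0 ^ 2 → 0 ≤ Y 0 →
      0 ≤ ∑ a, φ a * Y a) {ξ : Fin (n + 1) → ℝ} (hξ : ∑ i : Fin n, ξ i.succ ^ 2 < ξ 0 ^ 2)
    (hξ0 : 0 < ξ 0) (h0 : ∑ a, φ a * ξ a = 0) : φ = 0 := by
  have key : ∀ Y : Fin (n + 1) → ℝ, ∑ a, φ a * Y a = 0 := by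
    intro Y
    have c1 : Continuous fun t : ℝ => (ξ 0 + t * Y 0) ^ 2 -
        ∑ i : Fin n, (ξ i.succ + t * Y i.succ) ^ 2 := by fun_prop
    have c2 : Continuous fun t : ℝ => ξ 0 + t * Y 0 := by fun_prop
    have e1 : ∀ᶠ t : ℝ in 𝓝 0, 0 < (ξ 0 + t * Y 0) ^ 2 -
        ∑ i : Fin n, (ξ i.succ + t * Y i.succ) ^ 2 :=
      (c1.tendsto 0).eventually (lt_mem_nhds (by simpa using hξ))
    have e2 : ∀ᶠ t : ℝ in 𝓝 0, 0 < ξ 0 + t * Y 0 :=
      (c2.tendsto 0).eventually (lt_mem_nhds (by simpa using hξ0))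
    obtain ⟨ε, hε, hb⟩ := Metric.eventually_nhds_iff.1 (e1.and e2)
    have hp : ∀ t : ℝ, |t| < ε → 0 ≤ t * ∑ a, φ a * Y a := by
      intro t ht
      obtain ⟨h1, h2⟩ := hb (by rwa [Real.dist_eq, sub_zero] : dist t 0 < ε)
      have h3 := hφ (fun a => ξ a + t * Y a) (by linarith only [h1]) h2.le
      have h4 : ∑ a, φ a * (ξ a + t * Y a) = ∑ a, φ a * ξ a + t * ∑ a, φ a * Y a := by
        rw [Finset.mul_sum, ← Finset.sum_add_distrib]
        exact Finset.sum_congr rfl fun a _ => by ring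
      rw [h4, h0, zero_add] at h3
      exact h3
    have h1 := hp (ε / 2) (by rw [abs_of_pos (by positivity)]; linarith)
    have h2 := hp (-(ε / 2)) (by rw [abs_neg, abs_of_pos (by positivity)]; linarith)
    have h3 : 0 < ε / 2 := by positivity
    nlinarith
  funext b
  have := key (Pi.single b 1)
  simpa [Pi.single_apply] using this

/-- Linear algebra of the equality case: `T` is symmetric, nonnegative on pairs of future causal
vectors of the flat metric, and the null vector `k = - l` is an eigenvector. If `T(X, ξ) = 0` for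
a future causal `X` with `l(X) > 0` and a future timelike `ξ`, then `T = 0`. -/
lemma form_zero {T : Fin (n + 1) → Fin (n + 1) → ℝ} (hs : ∀ a b, T a b = T b a)
    (hT : ∀ X Y : Fin (n + 1) → ℝ, ∑ i : Fin n, X i.succ ^ 2 ≤ X 0 ^ 2 → 0 ≤ X 0 →
      ∑ i : Fin n, Y i.succ ^ 2 ≤ Y 0 ^ 2 → 0 ≤ Y 0 → 0 ≤ ∑ a, ∑ b, X a * T a b * Y b)
    {w : Fin (n + 1) → ℝ} (hw0 : 0 < w 0) (hw : ∑ i : Fin n, w i.succ ^ 2 = w 0 ^ 2) {α : ℝ}
    (hk : ∀ b, ∑ a, sgn a * w a * T a b = α * w b)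
    {X ξ : Fin (n + 1) → ℝ} (hX : ∑ i : Fin n, X i.succ ^ 2 ≤ X 0 ^ 2) (hX0 : 0 ≤ X 0)
    (hlX : 0 < ∑ a, w a * X a) (hξ : ∑ i : Fin n, ξ i.succ ^ 2 < ξ 0 ^ 2) (hξ0 : 0 < ξ 0)
    (h0 : ∑ a, ∑ b, X a * T a b * ξ b = 0) (a b : Fin (n + 1)) : T a b = 0 := by
  have rw1 : ∀ X Y : Fin (n + 1) → ℝ, ∑ a, ∑ b, X a * T a b * Y b =
      ∑ b, (∑ a, X a * T a b) * Y b := by
    intro X Y
    rw [Finset.sum_comm]
    exact Finset.sum_congr rfl fun b _ => (Finset.sum_mul _ _ _).symm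
  have s0 : sgn (0 : Fin (n + 1)) = -1 := rfl
  have ss : ∀ i : Fin n, sgn i.succ = 1 := fun i => by simp [sgn, Fin.succ_ne_zero]
  -- `T(X, ·) = 0`
  have h1 : (fun b => ∑ a, X a * T a b) = 0 := by
    refine fun_zero (fun Y hY hY0 => ?_) hξ hξ0 ?_
    · rw [← rw1]; exact hT X Y hX hX0 hY hY0
    · rw [← rw1]; exact h0
  have h1' : ∀ b, ∑ a, X a * T a b = 0 := fun b => congrFun h1 b
  -- the eigenvalue vanishes
  have hα : α = 0 := by
    have e1 : α * ∑ a, w a * X a = 0 := by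
      rw [Finset.mul_sum]
      have e2 : ∀ b, α * (w b * X b) = ∑ a, sgn a * w a * T a b * X b := by
        intro b
        rw [← Finset.sum_mul, hk b]; ring
      simp only [e2]
      rw [Finset.sum_comm]
      refine Finset.sum_eq_zero fun a _ => ?_
      have e3 : ∀ b, sgn a * w a * T a b * X b = (sgn a * w a) * (X b * T b a) := by
        intro b; rw [hs a b]; ring
      simp only [e3, ← Finset.mul_sum, h1', mul_zero]
    rcases mul_eq_zero.1 e1 with h | h
    · exact h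
    · exact absurd h hlX.ne'
  set X' : Fin (n + 1) → ℝ := fun a => X a - sgn a * w a with hX'
  have h2 : ∀ b, ∑ a, X' a * T a b = 0 := by
    intro b
    have e1 : ∀ a, X' a * T a b = X a * T a b - sgn a * w a * T a b := fun a => by
      rw [hX']; ring
    simp only [e1, Finset.sum_sub_distrib, h1', hk, hα]
    ring
  have hX'0 : 0 < X' 0 := by
    simp only [hX', s0]; linarith
  have hX't : ∑ i : Fin n, X' i.succ ^ 2 < X' 0 ^ 2 := by
    have e1 : ∀ i : Fin n, X' i.succ ^ 2 = X i.succ ^ 2 - 2 * (w i.succ * X i.succ) +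
        w i.succ ^ 2 := fun i => by simp only [hX', ss]; ring
    simp only [e1, Finset.sum_add_distrib, Finset.sum_sub_distrib, ← Finset.mul_sum, hw]
    rw [Fin.sum_univ_succ] at hlX
    have e2 : X' 0 ^ 2 = X 0 ^ 2 + 2 * (w 0 * X 0) + w 0 ^ 2 := by simp only [hX', s0]; ring
    rw [e2]
    linarith
  -- `T(Y, ·) = 0` for every future timelike `Y`
  have h3 : ∀ Y : Fin (n + 1) → ℝ, ∑ i : Fin n, Y i.succ ^ 2 ≤ Y 0 ^ 2 → 0 ≤ Y 0 →
      ∀ b, ∑ a, Y a * T a b = 0 := by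
    intro Y hY hY0
    have e1 : (fun b => ∑ a, Y a * T a b) = 0 := by
      refine fun_zero (fun Z hZ hZ0 => ?_) hX't hX'0 ?_
      · rw [← rw1]; exact hT Y Z hY hY0 hZ hZ0
      · rw [← rw1]
        refine Finset.sum_eq_zero fun a _ => ?_
        have e2 : ∀ b, Y a * T a b * X' b = Y a * (X' b * T b a) := by
          intro b; rw [hs a b]; ring
        simp only [e2, ← Finset.mul_sum, h2, mul_zero]
    exact fun b => congrFun e1 b
  have h4 : ∀ b, T 0 b = 0 := by
    intro b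
    have e1 := h3 (Pi.single 0 1) (by simp [Fin.succ_ne_zero])
      (by simp) b
    simpa [Pi.single_apply] using e1
  refine Fin.cases (h4 b) (fun i => ?_) a
  have e1 := h3 (fun a => Fin.cons (α := fun _ => ℝ) 1 (Pi.single i 1) a) (by
    simp only [Fin.cons_succ, Fin.cons_zero]
    simp [Pi.single_apply]) (by simp) b
  rw [Fin.sum_univ_succ] at e1
  simp only [Fin.cons_succ, Fin.cons_zero, h4, mul_zero, zero_add] at e1
  simpa [Pi.single_apply] using e1

variable {C : NullCone n} {l : Fin (n + 1) → E (n + 1) → ℝ} {V : E (n + 1) → ℝ}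
  {f : E n → ℝ} {D : Stmt.Exterior n} {p : E (n + 1)} {y : E n}

/-- Equality in `posT` forces the Einstein tensor to vanish. -/
theorem Gm_zero_of (hK : IsKSg l V p) (hD : DECatL (ksL l V) l p) {X ξ : Fin (n + 1) → ℝ}
    (hX : ∑ i : Fin n, X i.succ ^ 2 ≤ X 0 ^ 2) (hX0 : 0 ≤ X 0) (hlX : 0 < ∑ a, l a p * X a)
    (hξ : ∑ i : Fin n, ξ i.succ ^ 2 < ξ 0 ^ 2) (hξ0 : 0 < ξ 0)
    (h0 : ∑ a, ∑ b, sgn a * X a * Gm l V a b p * ξ b = 0) (a b : Fin (n + 1)) :
    Gm l V a b p = 0 := by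
  obtain ⟨U, hp, hU⟩ := toKLg' hK
  have sq : ∀ a : Fin (n + 1), sgn a * sgn a = 1 := sgn_sq8
  have hnul := null_at hK.toIsKS
  have key := form_zero (T := fun a b => sgn a * Gm l V a b p) (w := fun a => l a p)
    (α := (lr sgn l V p - Stmt.scal (ksL l V) p) / 2)
    (fun a b => by
      rw [Gm_eq, Gm_eq, hU.eM_eq hp, hU.eM_eq hp, hU.ein_symm hp a b]
      ring)
    (fun X Y hX hX0 hY hY0 => by
      have h1 := posT hK hD hX hX0 hY hY0
      have h2 : ∑ a, ∑ b, X a * (sgn a * Gm l V a b p) * Y b =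
          ∑ a, ∑ b, sgn a * X a * Gm l V a b p * Y b :=
        Finset.sum_congr rfl fun a _ => Finset.sum_congr rfl fun b _ => by ring
      rw [h2]; exact h1)
    hK.fut hnul
    (fun b => by
      rw [← hU.l_einM hp b]
      refine Finset.sum_congr rfl fun a _ => ?_
      rw [Gm_eq]
      linear_combination (l a p * einM (ksL l V) a b p) * sq a)
    hX hX0 hlX hξ hξ0
    (by
      rw [← h0]
      exact Finset.sum_congr rfl fun a _ => Finset.sum_congr rfl fun b _ => by ring) a b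
  have h2 : sgn a * (sgn a * Gm l V a b p) = 0 := by rw [key, mul_zero]
  rw [← mul_assoc, sq, one_mul] at h2
  exact h2

/-- The Einstein tensor vanishes where the energy density `T(ξ, (1, ∇f))` of the slice vanishes. -/
theorem Gm_zero_slice [Fact (3 ≤ n)] (hS : IsSliceL C l V f D) (hD : HasDEC C l V f f D)
    (hk : IsKSg l V (pt (f y) y))
    (hy : 0 ≤ D.F y) {ξ : Fin (n + 1) → ℝ} (hξ : ∑ i : Fin n, ξ i.succ ^ 2 < ξ 0 ^ 2)
    (hξ0 : 0 < ξ 0) (h0 : ∑ b, ξ b * ∑ i, pd i (Zf l V f b i) y = 0) (a b : Fin (n + 1)) :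
    Gm l V a b (pt (f y) y) = 0 := by
  have s0 : sgn (0 : Fin (n + 1)) = -1 := rfl
  have ss : ∀ i : Fin n, sgn i.succ = 1 := fun i => by simp [sgn, Fin.succ_ne_zero]
  have hfd : DifferentiableAt ℝ f y := (hS.smf y hy).differentiableAt (by simp)
  refine Gm_zero_of hk (hD.dec y hy) (X := Fin.cons (α := fun _ => ℝ) 1 fun i => pd i f y)
    (ξ := ξ) ?_ ?_ ?_ hξ hξ0 ?_ a b
  · simp only [Fin.cons_succ, Fin.cons_zero, one_pow]
    have h1 := hD.len y hy
    simpa only [Vale.Agent.P366.Bridge.pd_eq hfd] using h1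
  · simp
  · rw [Fin.sum_univ_succ]
    simp only [Fin.cons_succ, Fin.cons_zero, mul_one]
    exact tau_pos hS y hy
  · rw [Fin.sum_univ_succ]
    simp only [Fin.cons_succ, Fin.cons_zero, s0, ss, one_mul, mul_one]
    have h1 : ∀ b, ξ b * ∑ i, pd i (Zf l V f b i) y = ξ b * Gm l V 0 b (pt (f y) y) -
        ∑ j : Fin n, pd j f y * Gm l V j.succ b (pt (f y) y) * ξ b := by
      intro b
      rw [div_Z hS.toIsGraph hy hk b, mul_sub, ← Finset.sum_mul]
      ring
    simp only [h1, Finset.sum_sub_distrib] at h0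
    rw [Finset.sum_comm] at h0
    have h2 : ∑ b, -1 * Gm l V 0 b (pt (f y) y) * ξ b =
        - ∑ b, ξ b * Gm l V 0 b (pt (f y) y) := by
      rw [← Finset.sum_neg_distrib]; exact Finset.sum_congr rfl fun b _ => by ring
    rw [h2]
    linarith only [h0]

end Vale.Agent.P366.KSL
end
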