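import Vale.Agent.P366.H296.Q.Cone

/-! Equality case: extension to the boundary, functions with vanishing gradient. -/

open MeasureTheory Metric Filter Topology Set
open scoped ContDiff ENNReal

noncomputable section
namespace Vale.Agent.P366.KSL

open Vale.Agent.P366 (pd E)
open Vale.Agent.P366.H353.N
open Vale.Agent.P366.Kerr (NullCone Psi pt sp IsSliceL)
open Vale.Agent.P366.KSN (Y Y_apply posU' smH U_smul)

variable {n : ℕ} {C : NullCone n} {D : Stmt.Exterior n} {x y c : E n} {s : ℝ}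

lemma Y_ray (H : E n → ℝ) (x : E n) (s t : ℝ) : Y H x (s + t) = Y H x s + t • x := by
  ext i
  simp only [Y_apply, PiLp.add_apply, PiLp.smul_apply, smul_eq_mul]
  ring

/-- the points of the open exterior -/
theorem pos_iff (dom : ∀ y, 0 ≤ D.F y ↔ ∃ x, x ≠ 0 ∧ C.U x ≤ ‖x‖ ∧ Psi C.H x = y)
    (bdF : ∀ x, x ≠ 0 → ‖x‖ = C.U x → D.F (Psi C.H x) = 0) :
    0 < D.F y ↔ ∃ x t, ‖x‖ = 1 ∧ 0 < t ∧ Y C.H x (C.U x + t) = y := by
  constructor
  · intro h
    obtain ⟨x, s, hx, hs, rfl⟩ := (dom_iff dom).mp h.le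
    rcases hs.lt_or_eq with h1 | h1
    · exact ⟨x, s - C.U x, hx, sub_pos.mpr h1, by rw [add_sub_cancel]⟩
    · exfalso
      have h2 : D.F (Y C.H x (C.U x)) = 0 := bd_Y (β := fun _ => 0) bdF hx
      rw [← h1, h2] at h
      exact lt_irrefl _ h
  · rintro ⟨x, t, hx, ht, rfl⟩
    exact F_pos dom hx (by linarith)

/-- Equality of continuous functions on the open exterior extends to the boundary. -/
theorem ext_bdr (dom : ∀ y, 0 ≤ D.F y ↔ ∃ x, x ≠ 0 ∧ C.U x ≤ ‖x‖ ∧ Psi C.H x = y)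
    {A B : E n → ℝ} (hA : ∀ y, 0 ≤ D.F y → ContinuousAt A y)
    (hB : ∀ y, 0 ≤ D.F y → ContinuousAt B y) (h : ∀ y, 0 < D.F y → A y = B y)
    (hy : 0 ≤ D.F y) : A y = B y := by
  obtain ⟨x, s, hx, hs, rfl⟩ := (dom_iff dom).mp hy
  have h1 : Tendsto (fun t : ℝ => Y C.H x (s + t)) (𝓝[>] 0) (𝓝 (Y C.H x s)) := by
    have h2 : ContinuousAt (fun t : ℝ => Y C.H x s + t • x) 0 := by fun_prop
    have h3 := h2.tendsto
    rw [zero_smul, add_zero] at h3
    refine (h3.mono_left nhdsWithin_le_nhds).congr fun t => (Y_ray C.H x s t).symm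
  have h2 := (hA _ hy).tendsto.comp h1
  have h3 := (hB _ hy).tendsto.comp h1
  refine tendsto_nhds_unique (h2.congr' ?_) h3
  filter_upwards [self_mem_nhdsWithin] with t ht
  exact h _ (F_pos dom hx (by have := mem_Ioi.mp ht; linarith))

/-- The open exterior is connected. -/
theorem preconn_pos [Fact (3 ≤ n)]
    (dom : ∀ y, 0 ≤ D.F y ↔ ∃ x, x ≠ 0 ∧ C.U x ≤ ‖x‖ ∧ Psi C.H x = y)
    (bdF : ∀ x, x ≠ 0 → ‖x‖ = C.U x → D.F (Psi C.H x) = 0) :
    IsPreconnected {y | 0 < D.F y} := by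
  have hn3 := Fact.out (p := 3 ≤ n)
  have e : {y | 0 < D.F y} = (fun q : E n × ℝ => Y C.H q.1 (C.U q.1 + q.2)) ''
      (sphere (0 : E n) 1 ×ˢ Ioi (0 : ℝ)) := by
    ext y
    rw [mem_ofPred_eq, pos_iff dom bdF, mem_image]
    constructor
    · rintro ⟨x, t, hx, ht, h⟩
      exact ⟨(x, t), ⟨by simpa using hx, ht⟩, h⟩
    · rintro ⟨⟨x, t⟩, ⟨hx, ht⟩, h⟩
      exact ⟨x, t, by simpa using hx, ht, h⟩
  rw [e]
  have hr : 1 < Module.rank ℝ (E n) := by
    rw [← Module.finrank_eq_rank, finrank_euclideanSpace, Fintype.card_fin]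
    exact_mod_cast (by omega : 1 < n)
  have hc : IsPreconnected (sphere (0 : E n) 1 ×ˢ Ioi (0 : ℝ)) :=
    (isPreconnected_sphere hr 0 1).prod isPreconnected_Ioi
  refine hc.image _ ?_
  have h1 : ∀ i, ContinuousOn (fun q : E n × ℝ => pd i C.H q.1 + (C.U q.1 + q.2) * q.1 i)
      (sphere (0 : E n) 1 ×ˢ Ioi (0 : ℝ)) := by
    intro i q hq
    have hq0 : q.1 ≠ 0 := ne_zero_of_one (by simpa using hq.1)
    have c1 : ContinuousAt (fun q : E n × ℝ => pd i C.H q.1) q :=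
      ContinuousAt.comp (g := pd i C.H) (((smH C).pd i).contAt hq0) continuousAt_fst
    have c2 : ContinuousAt (fun q : E n × ℝ => C.U q.1) q :=
      ContinuousAt.comp (g := C.U) (KSN.smU C |>.contAt hq0) continuousAt_fst
    have c3 : ContinuousAt (fun q : E n × ℝ => q.1 i) q := by fun_prop
    exact (c1.add ((c2.add continuousAt_snd).mul c3)).continuousWithinAt
  have h2 : ContinuousOn (fun q : E n × ℝ =>
      (WithLp.toLp 2 fun i => pd i C.H q.1 + (C.U q.1 + q.2) * q.1 i : E n))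
      (sphere (0 : E n) 1 ×ˢ Ioi (0 : ℝ)) :=
    (PiLp.continuous_toLp 2 _).comp_continuousOn (continuousOn_pi.mpr h1)
  exact h2

/-- A function with vanishing gradient is constant. -/
theorem const_of_pd [Fact (3 ≤ n)]
    (dom : ∀ y, 0 ≤ D.F y ↔ ∃ x, x ≠ 0 ∧ C.U x ≤ ‖x‖ ∧ Psi C.H x = y)
    (bdF : ∀ x, x ≠ 0 → ‖x‖ = C.U x → D.F (Psi C.H x) = 0) {G : E n → ℝ}
    (hG : ∀ y, 0 ≤ D.F y → DifferentiableAt ℝ G y) (h : ∀ y, 0 < D.F y → ∀ i, pd i G y = 0) :
    ∃ M, ∀ y, 0 ≤ D.F y → G y = M := by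
  have hc := preconn_pos dom bdF
  have ho : IsOpen {y | 0 < D.F y} := isOpen_lt continuous_const D.dom.1.continuous
  have hf : EqOn (fderiv ℝ G) 0 {y | 0 < D.F y} := by
    intro y hy
    ext v
    rw [Vale.Agent.P366.fderiv_eq_sum_pd]
    simp [h y hy]
  obtain ⟨R, hR⟩ := D.dom.2.2.2
  have h3 := Fact.out (p := 3 ≤ n)
  set z : E n := (|R| + 1) • EuclideanSpace.single (⟨0, by omega⟩ : Fin n) (1 : ℝ) with hz
  have hzn : 0 < D.F z := hR z (by
    show R < ‖z‖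
    rw [hz, norm_smul, PiLp.norm_single, Real.norm_eq_abs, norm_one, mul_one,
      abs_of_pos (by positivity)]
    have := le_abs_self R
    linarith only [this])
  refine ⟨G z, fun y hy => ?_⟩
  refine ext_bdr (A := G) (B := fun _ => G z) dom (fun y hy => (hG y hy).continuousAt)
    (fun _ _ => continuousAt_const) (fun y hy => ?_) hy
  exact ho.is_const_of_fderiv_eq_zero hc (fun w hw => (hG w (le_of_lt hw)).differentiableWithinAt)
    hf hy hzn

end Vale.Agent.P366.KSL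
end
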