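import Vale.Agent.P366.H707.L.Stokes
import Vale.Agent.P366.H896.L.GlueB
import Vale.Agent.P366.H208.L.AFf
import Vale.Agent.P366.H474.L.C

/-! Equality case: energy and momentum of a slice on which the divergences vanish. -/

open MeasureTheory Metric Filter Topology Set
open scoped ContDiff ENNReal

noncomputable section
namespace Vale.Agent.P366.KSL

open Vale.Agent.P366 (pd E flux)
open Vale.Agent.P366.H353.N
open Vale.Agent.P366.Kerr (NullCone Psi pt sp indG indK sgn ksL ein IsKS FutTimelike DECatL IsGraph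
  IsSliceL HasDEC)
open Vale.Agent.P366.KSN (Y dts sg)

variable {n : ℕ} {C : NullCone n} {l : Fin (n + 1) → E (n + 1) → ℝ} {V : E (n + 1) → ℝ}
  {f : E n → ℝ} {D : Stmt.Exterior n} {p : E (n + 1)} {x y : E n}

lemma ksg_bdr (hS : IsSliceL C l V f D) (hk : ∀ y, 0 ≤ D.F y → IsKSg l V (pt (f y) y))
    (hx : ‖x‖ = 1) : IsKSg l V (pt (- C.U x) (Y C.H x (C.U x))) := by
  have hy : 0 ≤ D.F (Y C.H x (C.U x)) := (dom_iff hS.dom).2 ⟨x, C.U x, hx, le_rfl, rfl⟩
  have hU := C.pos x (ne_zero_of_one hx)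
  have h := hS.bdr (C.U x • x) (smul_ne_zero hU.ne' (ne_zero_of_one hx)) (by
    rw [KSN.U_smul C (ne_zero_of_one hx) hU, KSN.norm_smul_unit hx hU.le])
  rw [KSN.Y_eq C hx hU, KSN.U_smul C (ne_zero_of_one hx) hU] at h
  rw [← h]
  exact hk _ hy

/-- The flux identity of a divergence free field. -/
theorem bdr_flux [Fact (3 ≤ n)] (hS : IsSliceL C l V f D)
    (hk : ∀ y, 0 ≤ D.F y → IsKSg l V (pt (f y) y)) {b : Fin (n + 1)}
    (hdiv : ∀ y, 0 ≤ D.F y → ∑ i, pd i (Zf l V f b i) y = 0) {e : ℝ}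
    (he : Tendsto (flux (Zf l V f b)) atTop (𝓝 e)) :
    SI (fun x => V (pt (- C.U x) (Y C.H x (C.U x))) *
      l 0 (pt (- C.U x) (Y C.H x (C.U x))) ^ 2 * sg C.H (C.U x) x * lx x b) = - (2 * e) := by
  have hmem : ∀ x : E n, ‖x‖ = 1 → 0 ≤ D.F (Y C.H x (C.U x)) := fun x hx =>
    mem_Y hS.dom hx (le_refl _)
  have hZ : ∀ i y, 0 ≤ D.F y → ContDiffAt ℝ ∞ (Zf l V f b i) y := fun i y hy =>
    Z_smooth hS.toIsGraph hy b i
  have h1 := stokes hS.dom hS.bdF hZ (fun y hy => (hdiv y hy).ge) he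
  have hneg : ∀ i y, 0 ≤ D.F y → pd i (fun z => - Zf l V f b i z) y = - pd i (Zf l V f b i) y := by
    intro i y hy
    unfold Vale.Agent.P366.pd
    have : (fun z => - Zf l V f b i z) = - Zf l V f b i := rfl
    rw [this, fderiv_neg]
    rfl
  have he' : Tendsto (flux fun i y => - Zf l V f b i y) atTop (𝓝 (-e)) := by
    have e1 : (flux fun i y => - Zf l V f b i y) = fun r => - flux (Zf l V f b) r := by
      funext r
      unfold Vale.Agent.P366.flux Vale.Agent.P366.sphI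
      have : ∀ x : E n, ∑ i, - Zf l V f b i x * (x i / ‖x‖) =
          - ∑ i, Zf l V f b i x * (x i / ‖x‖) := fun x => by
        rw [← Finset.sum_neg_distrib]; exact Finset.sum_congr rfl fun i _ => by ring
      simp only [this]
      rw [integral_neg]
      ring
    rw [e1]
    exact he.neg
  have h2 := stokes (F := fun i y => - Zf l V f b i y) hS.dom hS.bdF
    (fun i y hy => (hZ i y hy).neg) (fun y hy => by
      have : ∑ i, pd i (fun z => - Zf l V f b i z) y = - ∑ i, pd i (Zf l V f b i) y := by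
        rw [← Finset.sum_neg_distrib]; exact Finset.sum_congr rfl fun i _ => hneg i y hy
      rw [this, hdiv y hy, neg_zero]) he'
  have e1 : SI (fun x => dts C.H (C.U x) x *
      ∑ i, Zf l V f b i (Y C.H x (C.U x)) * (x i - C.toDat.b x i)) =
      - (SI (fun x => V (pt (- C.U x) (Y C.H x (C.U x))) *
      l 0 (pt (- C.U x) (Y C.H x (C.U x))) ^ 2 * sg C.H (C.U x) x * lx x b) / 2) := by
    have : ∀ F : E n → ℝ, - (SI F / 2) = SI (fun x => (-(1 / 2)) * F x) := fun F => by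
      rw [SI_cmul]; ring
    rw [this]
    refine SI_congr fun x hx => ?_
    rw [Z_bdr hS.toIsGraph (hmem x hx) (ksg_bdr hS hk hx) hS.nor hx b]
    ring
  have e2 : SI (fun x => dts C.H (C.U x) x *
      ∑ i, (- Zf l V f b i (Y C.H x (C.U x))) * (x i - C.toDat.b x i)) =
      - SI (fun x => dts C.H (C.U x) x *
      ∑ i, Zf l V f b i (Y C.H x (C.U x)) * (x i - C.toDat.b x i)) := by
    rw [← SI_neg]
    refine SI_congr fun x hx => ?_
    rw [← mul_neg, ← Finset.sum_neg_distrib]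
    congr 1
    exact Finset.sum_congr rfl fun i _ => by ring
  rw [e1] at h1
  rw [e2, e1] at h2
  linarith only [h1, h2]

/-- The mean of the coordinates over the unit sphere vanishes. -/
lemma SI_coord [Fact (3 ≤ n)] (j : Fin n) : SI (fun x : E n => x j) = 0 := by
  have h := SI_div (n := n) (k := 0) (F := fun i _ => if i = j then 1 else 0)
    (fun i => Sm.const _) (fun i x _ r _ => by simp)
  have e1 : SI (fun x : E n => ∑ i, pd i (fun _ : E n => if i = j then (1 : ℝ) else 0) x) = 0 := by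
    have : ∀ x : E n, ∑ i, pd i (fun _ : E n => if i = j then (1 : ℝ) else 0) x = 0 := fun x =>
      Finset.sum_eq_zero fun i _ => Vale.Agent.P366.pd_const _ _ _
    simp only [this]
    have := SI_const (n := n) 0
    rw [this, mul_zero]
  rw [e1] at h
  have e2 : SI (fun x : E n => ∑ i, (if i = j then (1 : ℝ) else 0) * x i) =
      SI (fun x : E n => x j) := SI_congr fun x _ => by simp
  rw [e2] at h
  have h3 := Fact.out (p := 3 ≤ n)
  have h4 : (0 : ℝ) < (0 : ℤ) + n - 1 := by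
    have : (3 : ℝ) ≤ n := by exact_mod_cast h3
    push_cast; linarith
  exact (mul_eq_zero.mp h.symm).resolve_left h4.ne'

/-- If all divergences vanish and `V l_0^2 sg` is constant on the boundary surface, then the
momentum vanishes. -/
theorem mom_zero [Fact (3 ≤ n)] (hS : IsSliceL C l V f D)
    (hk : ∀ y, 0 ≤ D.F y → IsKSg l V (pt (f y) y)) (hAF : D.IsAF)
    (hdiv : ∀ b y, 0 ≤ D.F y → ∑ i, pd i (Zf l V f b i) y = 0) {κ : ℝ}
    (hκ : ∀ x, ‖x‖ = 1 → V (pt (- C.U x) (Y C.H x (C.U x))) *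
      l 0 (pt (- C.U x) (Y C.H x (C.U x))) ^ 2 * sg C.H (C.U x) x = κ)
    {P : Fin n → ℝ} (hP : D.IsMomentum P) (j : Fin n) : P j = 0 := by
  have h4 := af4 hS hAF
  have hfl : Tendsto (flux (Zf l V f j.succ)) atTop (𝓝 (-(((n : ℝ) - 1) * om n * P j))) :=
    Vale.Agent.P366.H474.L.flux_succ hS h4 hP j
  have h1 := bdr_flux hS hk (hdiv j.succ) hfl
  have e1 : SI (fun x => V (pt (- C.U x) (Y C.H x (C.U x))) *
      l 0 (pt (- C.U x) (Y C.H x (C.U x))) ^ 2 * sg C.H (C.U x) x * lx x j.succ) = 0 := by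
    have : SI (fun x => V (pt (- C.U x) (Y C.H x (C.U x))) *
      l 0 (pt (- C.U x) (Y C.H x (C.U x))) ^ 2 * sg C.H (C.U x) x * lx x j.succ) =
        SI (fun x : E n => κ * x j) := SI_congr fun x hx => by
      rw [hκ x hx]
      rfl
    rw [this, SI_cmul, SI_coord, mul_zero]
  rw [e1] at h1
  have h3 : (3 : ℝ) ≤ n := by exact_mod_cast Fact.out (p := 3 ≤ n)
  have h5 : 0 < ((n : ℝ) - 1) * om n := mul_pos (by linarith) om_pos
  have h6 : ((n : ℝ) - 1) * om n * P j = 0 := by linarith only [h1]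
  exact (mul_eq_zero.mp h6).resolve_left h5.ne'

/-- The energy under the same hypotheses. -/
theorem energy_val [Fact (3 ≤ n)] (hS : IsSliceL C l V f D)
    (hk : ∀ y, 0 ≤ D.F y → IsKSg l V (pt (f y) y)) (hAF : D.IsAF)
    (hdiv : ∀ y, 0 ≤ D.F y → ∑ i, pd i (Zf l V f 0 i) y = 0) {κ : ℝ}
    (hκ : ∀ x, ‖x‖ = 1 → V (pt (- C.U x) (Y C.H x (C.U x))) *
      l 0 (pt (- C.U x) (Y C.H x (C.U x))) ^ 2 * sg C.H (C.U x) x = κ)
    {m : ℝ} (hm : D.IsEnergy m) : κ = 2 * ((n : ℝ) - 1) * m := by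
  have h4 := af4 hS hAF
  have hfl : Tendsto (flux (Zf l V f 0)) atTop (𝓝 (-(((n : ℝ) - 1) * om n * m))) :=
    Vale.Agent.P366.H474.L.flux_zero hS h4 hm
  have h1 := bdr_flux hS hk hdiv hfl
  have e1 : SI (fun x => V (pt (- C.U x) (Y C.H x (C.U x))) *
      l 0 (pt (- C.U x) (Y C.H x (C.U x))) ^ 2 * sg C.H (C.U x) x * lx x 0) = om n * κ := by
    rw [← SI_const]
    refine SI_congr fun x hx => ?_
    rw [hκ x hx]
    show κ * 1 = κ
    rw [mul_one]
  rw [e1] at h1
  have h5 : 0 < om n := om_pos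
  have h6 : om n * (κ - 2 * ((n : ℝ) - 1) * m) = 0 := by linarith only [h1]
  have h7 := (mul_eq_zero.mp h6).resolve_left h5.ne'
  linarith only [h7]

end Vale.Agent.P366.KSL
end
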